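import Vale.Agent.P236.Main

/-! Reduction modulo `3` and the final cochains in the polynomial part. -/

namespace Vale.Agent.P236

open MvPolynomial Finset

/-- Reduction modulo `3`. -/
noncomputable def red : P ℤ →+* P (ZMod 3) := MvPolynomial.map (Int.castRingHom (ZMod 3))

lemma red_X (p : ℕ × Fin 3) : red (X p) = X p := by simp [red]
lemma red_C (r : ℤ) : red (C r) = C (r : ZMod 3) := by simp [red]

lemma red_alg (α : P ℤ →ₐ[ℤ] P ℤ) (β : P (ZMod 3) →ₐ[ZMod 3] P (ZMod 3))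
    (h : ∀ p, red (α (X p)) = β (X p)) (f : P ℤ) : red (α f) = β (red f) := by
  have e : red.comp (α : P ℤ →+* P ℤ) = (β : P (ZMod 3) →+* P (ZMod 3)).comp red := by
    apply MvPolynomial.ringHom_ext
    · intro r
      simp only [RingHom.comp_apply, RingHom.coe_coe]
      rw [red_C, ← MvPolynomial.algebraMap_eq, ← MvPolynomial.algebraMap_eq, AlgHom.commutes,
        AlgHom.commutes, MvPolynomial.algebraMap_eq, red_C, MvPolynomial.algebraMap_eq]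
    · intro p
      simp only [RingHom.comp_apply, RingHom.coe_coe]
      rw [h, red_X]
  exact DFunLike.congr_fun e f

lemma red_dv (i : ℕ) (n : Fin 3) : red (dv i n) = dv i n := by
  unfold dv
  split_ifs <;> simp [red_X]

lemma red_D (j : ℕ) (f : P ℤ) : red (D j f) = D j (red f) := by
  apply red_alg
  intro p
  rw [D_X, D_X]
  unfold Dg
  split_ifs
  · rw [red_X]
  · rw [red_X]
  · exact red_dv _ _
  · rw [red_X]

lemma red_T (s : ℕ) (f : P ℤ) : red (T s f) = T s (red f) := by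
  apply red_alg
  intro p
  rw [T_X, T_X, red_X]

lemma red_rho (s : ℕ) (f : P ℤ) : red (rho s f) = rho s (red f) := by
  apply red_alg
  intro p
  rw [rho_X, rho_X]
  split_ifs
  · rw [red_X]
  · rw [map_zero]

lemma red_three : red 3 = 0 := by
  rw [← map_ofNat (C : ℤ →+* P ℤ) 3, red_C]
  have : ((3 : ℤ) : ZMod 3) = 0 := rfl
  rw [this, map_zero]

lemma red_of_dvd {f : P ℤ} (h : (3 : P ℤ) ∣ f) : red f = 0 := by
  obtain ⟨c, rfl⟩ := h
  rw [map_mul, red_three, zero_mul]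

lemma red_psi (f : P ℤ) : red (psi f) = red f ^ 3 := by
  have h := pow_cong f
  rw [← map_pow]
  have h2 := red_of_dvd (f := f ^ 3 - psi f) (by simpa using h)
  rw [map_sub, sub_eq_zero] at h2
  exact h2.symm

lemma red_d (s : ℕ) (f : P ℤ) : red (d s f) = d s (red f) := by
  unfold d
  simp only [map_add, map_sum, map_mul, map_pow, map_neg, map_one, red_D]

lemma IsC.red {s : ℕ} {f : P ℤ} (hf : IsC s f) : IsC s (red f) := by
  unfold IsC at *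
  rw [← red_rho, hf]

instance : CharP (P (ZMod 3)) 3 := inferInstance

lemma d_cube (s : ℕ) (f : P (ZMod 3)) : d s (f ^ 3) = d s f ^ 3 := by
  unfold d
  rw [add_pow_char, sum_pow_char]
  simp only [map_pow, mul_pow, ← pow_mul]
  have h : ∀ n : ℕ, ((-1 : P (ZMod 3)) ^ (n * 3)) = (-1) ^ n := by
    intro n
    rw [mul_comm, pow_mul]
    norm_num
  simp only [h]

lemma d_frob (s : ℕ) (f : P (ZMod 3)) (m : ℕ) : d s (f ^ 3 ^ m) = d s f ^ 3 ^ m := by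
  induction m with
  | zero => simp
  | succ m ih => rw [pow_succ, pow_mul, d_cube, ih, ← pow_mul]

/-- The coordinate `x^{3^m}` of slot `0`, representing `h_m`. -/
noncomputable def hh (m : ℕ) : P (ZMod 3) := X (0, 0) ^ 3 ^ m

/-- `b_m`. -/
noncomputable def bb (m : ℕ) : P (ZMod 3) :=
  (X (0, 0) ^ 2 * X (1, 0) + X (0, 0) * X (1, 0) ^ 2) ^ 3 ^ m

lemma isC_hh (m : ℕ) : IsC 1 (hh m) := (IsC.X (by norm_num) _).pow _
lemma isC_bb (m : ℕ) : IsC 2 (bb m) := by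
  unfold bb
  exact ((((IsC.X (by norm_num) _).pow _).mul (IsC.X (by norm_num) _)).add
    ((IsC.X (by norm_num) _).mul ((IsC.X (by norm_num) _).pow _))).pow _

lemma red_b0 : red b0 = bb 0 := by
  simp [b0, bb, red_X]
lemma red_b1 : red b1 = bb 1 := by
  rw [← psi_b0, red_psi, red_b0, bb, bb]
  ring

lemma bb_pow (m n : ℕ) : bb m ^ 3 ^ n = bb (m + n) := by
  rw [bb, ← pow_mul, ← pow_add, bb]
lemma hh_pow (m n : ℕ) : hh m ^ 3 ^ n = hh (m + n) := by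
  rw [hh, ← pow_mul, ← pow_add, hh]

lemma d_hh (m : ℕ) : d 1 (hh m) = 0 := by
  have h : d 1 (X (0, 0) : P (ZMod 3)) = 0 := by
    have := red_d 1 (X (0, 0))
    rw [F1, map_zero, red_X] at this
    exact this.symm
  rw [hh, d_frob, h, zero_pow (by positivity)]

lemma d_bb (m : ℕ) : d 2 (bb m) = 0 := by
  have h : d 2 (bb 0) = 0 := by
    have h2 : d 2 b0 = 0 := by
      simp [d, Finset.sum_range_succ, D_X, Dg, dv0, b0]
      ring
    rw [← red_b0, ← red_d, h2, map_zero]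
  rw [← zero_add m, ← bb_pow, d_frob, h, zero_pow (by positivity)]

lemma IsC.eq {k : Type} [CommRing k] {s t : ℕ} {f : P k} (hf : IsC s f) (h : s = t) :
    IsC t f := h ▸ hf

/-- The three relations modulo `3`. -/
theorem rels : ∃ L Z K M : P (ZMod 3), IsC 2 L ∧ IsC 3 Z ∧ IsC 3 K ∧ IsC 4 M ∧
    hh 1 * T 1 (bb 1) = bb 0 * T 2 (hh 2) + d 2 L ∧
    d 3 Z = 0 ∧
    bb 1 * T 2 (bb 1) = Z * T 3 (hh 1) - d 3 K ∧
    Z ^ 3 * T 3 (bb 1) = d 4 M := by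
  obtain ⟨L, hL, h1⟩ := relA
  obtain ⟨Z, hZ, h2, h3, h4⟩ := relX
  obtain ⟨K, hK, h5⟩ := relB h2
  obtain ⟨M, hM, h6⟩ := relC h4
  refine ⟨red L, red Z, red K, red M, hL.red, hZ.red, hK.red, hM.red, ?_, ?_, ?_, ?_⟩
  · have := red_of_dvd h1
    simp only [map_sub, map_mul, red_T, red_d, map_pow, red_X, red_b0, red_b1] at this
    simp only [hh, map_pow, Nat.reducePow] at this ⊢
    linear_combination this
  · rw [← red_d]; exact red_of_dvd h3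
  · have := red_of_dvd h5
    simp only [map_sub, map_add, map_mul, red_T, red_d, map_pow, red_X, red_b0, red_b1] at this
    simp only [hh, map_pow, Nat.reducePow] at this ⊢
    linear_combination this
  · have := red_of_dvd h6
    simp only [map_sub, map_add, map_mul, red_T, red_d, red_psi, red_b0, red_b1] at this
    linear_combination this

lemma frob_sub (a b : P (ZMod 3)) (m : ℕ) : (a - b) ^ 3 ^ m = a ^ 3 ^ m - b ^ 3 ^ m :=
  sub_pow_char_pow a b m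
lemma frob_add (a b : P (ZMod 3)) (m : ℕ) : (a + b) ^ 3 ^ m = a ^ 3 ^ m + b ^ 3 ^ m :=
  add_pow_char_pow a b 3 m

/-- The Frobenius twists of the three relations. -/
theorem rels_frob (m : ℕ) : ∃ L Z K M : P (ZMod 3), IsC 2 L ∧ IsC 3 Z ∧ IsC 3 K ∧ IsC 4 M ∧
    hh (m + 1) * T 1 (bb (m + 1)) = bb m * T 2 (hh (m + 2)) + d 2 L ∧
    d 3 Z = 0 ∧
    bb (m + 1) * T 2 (bb (m + 1)) = Z * T 3 (hh (m + 1)) - d 3 K ∧
    Z ^ 3 * T 3 (bb (m + 1)) = d 4 M := by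
  obtain ⟨L, Z, K, M, hL, hZ, hK, hM, h1, h2, h3, h4⟩ := rels
  refine ⟨L ^ 3 ^ m, Z ^ 3 ^ m, K ^ 3 ^ m, M ^ 3 ^ m, hL.pow _, hZ.pow _, hK.pow _, hM.pow _,
    ?_, ?_, ?_, ?_⟩
  · rw [d_frob, show m + 1 = 1 + m by ring, show m + 2 = 2 + m by ring, ← hh_pow, ← bb_pow,
      ← hh_pow 2, map_pow, ← mul_pow, h1, frob_add, mul_pow, bb_pow, zero_add, map_pow]
  · rw [d_frob, h2, zero_pow (by positivity)]
  · rw [d_frob, show m + 1 = 1 + m by ring, ← hh_pow, ← bb_pow, map_pow, ← mul_pow, h3, frob_sub,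
      mul_pow, map_pow]
  · rw [d_frob, show m + 1 = 1 + m by ring, ← bb_pow, map_pow, ← pow_mul, mul_comm (3 ^ m) 3,
      pow_mul, ← mul_pow, h4]

lemma d_y (m : ℕ) : d 1 (X (0, 1) ^ 3 ^ m : P (ZMod 3)) = -(hh (m + 1) * T 1 (hh m)) := by
  have h : d 1 (X (0, 1) : P (ZMod 3)) = -(X (0, 0) ^ 3 * X (1, 0)) := by
    have := red_d 1 (X (0, 1))
    rw [F1y, map_neg, map_mul, map_pow, red_X, red_X, red_X] at this
    exact this.symm
  have h2 : (-(X (0, 0) ^ 3 * X (1, 0) : P (ZMod 3))) ^ 3 ^ m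
      = -(X (0, 0) ^ 3 * X (1, 0)) ^ 3 ^ m := by
    have := frob_sub 0 (X (0, 0) ^ 3 * X (1, 0) : P (ZMod 3)) m
    rwa [zero_pow (by positivity), zero_sub, zero_sub] at this
  rw [d_frob, h, h2, mul_pow, ← pow_mul, hh, hh, map_pow, T_X, pow_succ' 3 m]

lemma T_T' {k : Type} [CommRing k] (s t : ℕ) (f : P k) : T s (T t f) = T (s + t) f := by
  rw [← AlgHom.comp_apply, T_T]

/-- `b_j ⌣ b_j ⌣ h_{j-1}` is a coboundary for `j = m + 1 ≥ 1`. -/
theorem sq_mul_h (m : ℕ) : ∃ C : P (ZMod 3), IsC 4 C ∧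
    bb (m + 1) * T 2 (bb (m + 1)) * T 4 (hh m) = d 4 C := by
  obtain ⟨L, Z, K, M, hL, hZ, hK, hM, h1, h2, h3, h4⟩ := rels_frob m
  have hy : IsC 1 (X (0, 1) ^ 3 ^ m : P (ZMod 3)) := (IsC.X (by norm_num) _).pow _
  refine ⟨Z * T 3 (X (0, 1) ^ 3 ^ m) - K * T 3 (hh m),
    (hZ.cup' hy (by norm_num)).sub (hK.cup' (isC_hh m) (by norm_num)), ?_⟩
  have e1 := leibniz' 1 hZ (X (0, 1) ^ 3 ^ m) (show 3 + 1 = 4 by norm_num)
  have e2 := leibniz' 1 hK (hh m) (show 3 + 1 = 4 by norm_num)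
  rw [d_sub, e1, e2, h3, h2, d_y, d_hh]
  simp only [map_neg, map_mul, T_T', map_zero]
  ring

/-- `b_j ⌣ b_j ⌣ b_j` is a coboundary for `j = m + 2 ≥ 2`. -/
theorem cube (m : ℕ) : ∃ C : P (ZMod 3), IsC 5 C ∧
    bb (m + 2) * T 2 (bb (m + 2)) * T 4 (bb (m + 2)) = d 5 C := by
  obtain ⟨L, Z, K, M, hL, hZ, hK, hM, h1, h2, h3, h4⟩ := rels_frob m
  have g1 : hh (m + 2) * T 1 (bb (m + 2)) = bb (m + 1) * T 2 (hh (m + 3)) + d 2 (L ^ 3) := by
    have := congrArg (fun t => t ^ 3 ^ 1) h1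
    rw [frob_add, mul_pow, mul_pow, ← map_pow, ← map_pow, bb_pow, bb_pow, hh_pow, hh_pow,
      pow_one, ← d_cube] at this
    exact this
  have g2 : d 3 (Z ^ 3) = 0 := by rw [d_cube, h2]; norm_num
  have g3 : bb (m + 2) * T 2 (bb (m + 2)) = Z ^ 3 * T 3 (hh (m + 2)) - d 3 (K ^ 3) := by
    have := congrArg (fun t => t ^ 3 ^ 1) h3
    rw [frob_sub, mul_pow, mul_pow, ← map_pow, ← map_pow, bb_pow, hh_pow, pow_one,
      ← d_cube] at this
    exact this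
  refine ⟨M * T 4 (hh (m + 3)) - Z ^ 3 * T 3 (L ^ 3) - K ^ 3 * T 3 (bb (m + 2)),
    ((hM.cup' (isC_hh _) (by norm_num)).sub ((hZ.pow 3).cup' (hL.pow 3) (by norm_num))).sub
      ((hK.pow 3).cup' (isC_bb _) (by norm_num)), ?_⟩
  have e1 := leibniz' 1 hM (hh (m + 3)) (show 4 + 1 = 5 by norm_num)
  have e2 := leibniz' 2 (hZ.pow 3) (L ^ 3) (show 3 + 2 = 5 by norm_num)
  have e3 := leibniz' 2 (hK.pow 3) (bb (m + 2)) (show 3 + 2 = 5 by norm_num)
  have g4 := congrArg (T 3) g1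
  rw [d_sub, d_sub, e1, e2, e3, g2, g3, d_hh, d_bb, ← h4]
  simp only [map_mul, map_add, T_T', map_zero] at g4 ⊢
  simp only [Nat.reduceAdd] at g4 ⊢
  linear_combination Z ^ 3 * g4

/-- `b_1 ⌣ b_1 ⌣ b_1 ⌣ h_0` is a coboundary. -/
theorem cube_mul_h_one : ∃ C : P (ZMod 3), IsC 6 C ∧
    bb 1 * T 2 (bb 1) * T 4 (bb 1) * T 6 (hh 0) = d 6 C := by
  obtain ⟨c, hc, h⟩ := sq_mul_h 0
  refine ⟨bb 1 * T 2 c, (isC_bb 1).cup' hc (by norm_num), ?_⟩
  have e := leibniz' 4 (isC_bb 1) c (show 2 + 4 = 6 by norm_num)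
  have g := congrArg (T 2) h
  simp only [map_mul, T_T', zero_add] at g
  simp only [Nat.reduceAdd] at g
  rw [e, d_bb, ← g]
  ring

/-- `b_j ⌣ b_j ⌣ b_j ⌣ h_0` is a coboundary for `j = m + 2`. -/
theorem cube_mul_h (m : ℕ) : ∃ C : P (ZMod 3), IsC 6 C ∧
    bb (m + 2) * T 2 (bb (m + 2)) * T 4 (bb (m + 2)) * T 6 (hh 0) = d 6 C := by
  obtain ⟨c, hc, h⟩ := cube m
  refine ⟨c * T 5 (hh 0), hc.cup' (isC_hh 0) (by norm_num), ?_⟩
  have e := leibniz' 1 hc (hh 0) (show 5 + 1 = 6 by norm_num)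
  rw [e, d_hh, ← h]
  simp only [map_zero, mul_zero, add_zero, Nat.reduceAdd]

/-- The relations `h_{j+1} b_{j+1} = b_j h_{j+2}`, `b_{j+1}² = z_j h_{j+1}` and
`z_{j+1} b_{j+1} = 0`. -/
theorem rels_all : ∃ Z : ℕ → P (ZMod 3), ∀ m, IsC 3 (Z m) ∧ d 3 (Z m) = 0 ∧
    (∃ C, IsC 2 C ∧ hh (m + 1) * T 1 (bb (m + 1)) - bb m * T 2 (hh (m + 2)) = d 2 C) ∧
    (∃ C, IsC 3 C ∧ bb (m + 1) * T 2 (bb (m + 1)) - Z m * T 3 (hh (m + 1)) = d 3 C) ∧
    (∃ C, IsC 4 C ∧ Z (m + 1) * T 3 (bb (m + 1)) = d 4 C) := by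
  obtain ⟨L, Z, K, M, hL, hZ, hK, hM, h1, h2, h3, h4⟩ := rels
  refine ⟨fun m => Z ^ 3 ^ m, fun m => ⟨hZ.pow _, ?_, ⟨L ^ 3 ^ m, hL.pow _, ?_⟩,
    ⟨-K ^ 3 ^ m, (hK.pow _).neg, ?_⟩, ⟨M ^ 3 ^ m, hM.pow _, ?_⟩⟩⟩
  · rw [d_frob, h2, zero_pow (by positivity)]
  · rw [d_frob, show m + 1 = 1 + m by ring, show m + 2 = 2 + m by ring, ← hh_pow, ← bb_pow,
      ← hh_pow 2, map_pow, ← mul_pow, h1, frob_add, mul_pow, bb_pow, zero_add, map_pow,
      add_sub_cancel_left]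
  · rw [d_neg, d_frob, show m + 1 = 1 + m by ring, ← hh_pow, ← bb_pow, map_pow, ← mul_pow, h3,
      frob_sub, mul_pow, map_pow]
    ring
  · show Z ^ 3 ^ (m + 1) * _ = _
    rw [d_frob, show m + 1 = 1 + m by ring, ← bb_pow, map_pow, pow_add 3 1 m, pow_mul, ← mul_pow,
      pow_one, h4]

end Vale.Agent.P236
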