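import Vale.Agent.P236.Cob

/-! The cobar differential, Leibniz rule, `d² ≡ 0`, and the chain level operation `β P⁰`. -/

namespace Vale.Agent.P236

open MvPolynomial Finset

section gen

variable {k : Type} [CommRing k]

/-- The cobar differential on cochains with `s` slots. -/
noncomputable def d (s : ℕ) (f : P k) : P k :=
  ∑ j ∈ range (s + 1), (-1) ^ j * D j f + (-1) ^ (s + 1) * f

/-- `f` has `s` slots. -/
def IsC (s : ℕ) (f : P k) : Prop := rho s f = f

lemma IsC.add {s : ℕ} {f g : P k} (hf : IsC s f) (hg : IsC s g) : IsC s (f + g) := by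
  unfold IsC at *; rw [map_add, hf, hg]
lemma IsC.sub {s : ℕ} {f g : P k} (hf : IsC s f) (hg : IsC s g) : IsC s (f - g) := by
  unfold IsC at *; rw [map_sub, hf, hg]
lemma IsC.mul {s : ℕ} {f g : P k} (hf : IsC s f) (hg : IsC s g) : IsC s (f * g) := by
  unfold IsC at *; rw [map_mul, hf, hg]
lemma IsC.neg {s : ℕ} {f : P k} (hf : IsC s f) : IsC s (-f) := by
  unfold IsC at *; rw [map_neg, hf]
lemma IsC.pow {s : ℕ} {f : P k} (hf : IsC s f) (n : ℕ) : IsC s (f ^ n) := by
  unfold IsC at *; rw [map_pow, hf]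
lemma IsC.one (s : ℕ) : IsC s (1 : P k) := by unfold IsC; simp
lemma IsC.zero (s : ℕ) : IsC s (0 : P k) := by unfold IsC; simp
lemma IsC.ofNat (s n : ℕ) [n.AtLeastTwo] : IsC s (OfNat.ofNat n : P k) := by
  unfold IsC; exact map_ofNat _ _
lemma IsC.natCast (s n : ℕ) : IsC s (n : P k) := by unfold IsC; exact map_natCast _ _
lemma IsC.X {s i : ℕ} (h : i < s) (n : Fin 3) : IsC s (X (i, n) : P k) := by
  unfold IsC; rw [rho_X, if_pos (by simpa using h)]

lemma IsC.mono {s t : ℕ} {f : P k} (hf : IsC s f) (h : s ≤ t) : IsC t f := by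
  unfold IsC at *
  conv_lhs => rw [← hf]
  rw [← AlgHom.comp_apply, rho_rho h, hf]

lemma IsC.D {s : ℕ} {f : P k} (hf : IsC s f) (j : ℕ) : IsC (s + 1) (D j f) := by
  unfold IsC at *
  conv_lhs => rw [← hf]
  have := DFunLike.congr_fun (rho_D_rho (k := k) j s) f
  simp only [AlgHom.comp_apply] at this
  rw [this, hf]

lemma IsC.psi {s : ℕ} {f : P k} (hf : IsC s f) : IsC s (psi f) := by
  unfold IsC at *
  have := DFunLike.congr_fun (rho_psi (k := k) s) f
  simp only [AlgHom.comp_apply] at this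
  rw [this, hf]

lemma IsC.T {t : ℕ} {f : P k} (hf : IsC t f) (s : ℕ) : IsC (s + t) (T s f) := by
  unfold IsC at *
  conv_lhs => rw [← hf]
  have := DFunLike.congr_fun (rho_T (k := k) s t) f
  simp only [AlgHom.comp_apply] at this
  rw [this, hf]

lemma IsC.D_eq {s m : ℕ} {f : P k} (hf : IsC s f) (h : s ≤ m) : Vale.Agent.P236.D (m + 1) f = f := by
  unfold IsC at hf
  conv_lhs => rw [← hf]
  rw [← AlgHom.comp_apply, D_rho h, hf]

lemma IsC.sum {s : ℕ} {ι : Type} (I : Finset ι) (f : ι → P k) (h : ∀ i ∈ I, IsC s (f i)) :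
    IsC s (∑ i ∈ I, f i) := by
  unfold IsC at *
  rw [map_sum]
  exact Finset.sum_congr rfl h

lemma IsC.cup {s t : ℕ} {f g : P k} (hf : IsC s f) (hg : IsC t g) :
    IsC (s + t) (f * Vale.Agent.P236.T s g) :=
  (hf.mono (by omega)).mul (hg.T s)

lemma IsC.d {s : ℕ} {f : P k} (hf : IsC s f) : IsC (s + 1) (d s f) := by
  unfold Vale.Agent.P236.d
  refine (IsC.sum _ _ fun j _ => ?_).add ?_
  · exact ((IsC.one _).neg.pow _).mul (hf.D j)
  · exact ((IsC.one _).neg.pow _).mul (hf.mono (by omega))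

lemma d_eq {s : ℕ} {f : P k} (hf : IsC s f) :
    d s f = ∑ j ∈ range (s + 2), (-1) ^ j * D j f := by
  rw [Finset.sum_range_succ, hf.D_eq le_rfl, d]

lemma d_add (s : ℕ) (f g : P k) : d s (f + g) = d s f + d s g := by
  simp only [d, map_add, mul_add, Finset.sum_add_distrib]; ring
lemma d_neg (s : ℕ) (f : P k) : d s (-f) = -d s f := by
  simp only [d, map_neg, mul_neg, Finset.sum_neg_distrib]; ring
lemma d_sub (s : ℕ) (f g : P k) : d s (f - g) = d s f - d s g := by
  rw [sub_eq_add_neg, d_add, d_neg, sub_eq_add_neg]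
lemma d_natmul (s n : ℕ) (f : P k) : d s ((n : P k) * f) = n * d s f := by
  simp only [d, map_mul, map_natCast, Finset.mul_sum, mul_add]
  congr 1
  · exact Finset.sum_congr rfl fun j _ => by ring
  · ring

theorem leibniz {s : ℕ} (t : ℕ) {f : P k} (hf : IsC s f) (g : P k) :
    d (s + t) (f * T s g) = d s f * T (s + 1) g + (-1) ^ s * (f * T s (d t g)) := by
  unfold d
  have e1 : ∑ j ∈ range (s + t + 1), (-1 : P k) ^ j * D j (f * T s g)
      = ∑ j ∈ range (s + 1), (-1 : P k) ^ j * (D j f * T (s + 1) g)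
        + ∑ x ∈ range t, (-1 : P k) ^ (s + 1 + x) * (f * T s (D (x + 1) g)) := by
    rw [show s + t + 1 = (s + 1) + t by ring, Finset.sum_range_add]
    congr 1
    · refine Finset.sum_congr rfl fun j hj => ?_
      rw [Finset.mem_range] at hj
      rw [map_mul, ← AlgHom.comp_apply (D j) (T s) g, D_T (by omega)]
    · refine Finset.sum_congr rfl fun x _ => ?_
      rw [map_mul, show s + 1 + x = s + (x + 1) by ring, ← AlgHom.comp_apply (D _) (T s) g, D_T',
        show s + (x + 1) = (s + x) + 1 by ring, hf.D_eq (by omega), AlgHom.comp_apply]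
  have e2 : T s (∑ j ∈ range (t + 1), (-1 : P k) ^ j * D j g + (-1) ^ (t + 1) * g)
      = T (s + 1) g + ∑ x ∈ range t, (-1 : P k) ^ (x + 1) * T s (D (x + 1) g)
        + (-1) ^ (t + 1) * T s g := by
    rw [Finset.sum_range_succ', map_add, map_add, map_sum]
    have e3 : T s (D 0 g) = T (s + 1) g := by
      rw [← AlgHom.comp_apply]
      congr 1
      apply MvPolynomial.algHom_ext
      rintro ⟨i, n⟩
      simp only [AlgHom.comp_apply, D_X0, T_X]
      congr 2
      omega
    simp only [map_mul, map_pow, map_neg, map_one, pow_zero, one_mul, e3]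
    ring
  have e4 : ∑ x ∈ range t, (-1 : P k) ^ (s + 1 + x) * (f * T s (D (x + 1) g))
      = (-1) ^ s * (f * ∑ x ∈ range t, (-1 : P k) ^ (x + 1) * T s (D (x + 1) g)) := by
    rw [Finset.mul_sum, Finset.mul_sum]
    exact Finset.sum_congr rfl fun x _ => by ring
  have e5 : ∑ j ∈ range (s + 1), (-1 : P k) ^ j * (D j f * T (s + 1) g)
      = (∑ j ∈ range (s + 1), (-1 : P k) ^ j * D j f) * T (s + 1) g := by
    rw [Finset.sum_mul]
    exact Finset.sum_congr rfl fun x _ => by ring
  rw [e1, e2, e4, e5]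
  generalize ∑ x ∈ range t, (-1 : P k) ^ (x + 1) * T s (D (x + 1) g) = S1
  generalize ∑ j ∈ range (s + 1), (-1 : P k) ^ j * D j f = S2
  ring

/-- combinatorial cancellation -/
lemma cancel {R : Type} [CommRing R] (N : ℕ) (a : ℕ → ℕ → R)
    (H : ∀ i j, i ≤ j → j < N → a i (j + 1) = a j i) :
    ∑ p ∈ range (N + 1) ×ˢ range N, (-1 : R) ^ (p.1 + p.2) * a p.2 p.1 = 0 := by
  refine Finset.sum_involution
    (fun p _ => if p.2 < p.1 then (p.2, p.1 - 1) else (p.2 + 1, p.1)) ?_ ?_ ?_ ?_
  · rintro ⟨j, i⟩ hp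
    rw [Finset.mem_product, Finset.mem_range, Finset.mem_range] at hp
    simp only at hp ⊢
    split_ifs with h
    · obtain ⟨j, rfl⟩ : ∃ m, j = m + 1 := ⟨j - 1, by omega⟩
      simp only [Nat.add_sub_cancel]
      rw [H i j (by omega) (by omega)]
      ring
    · rw [H j i (by omega) (by omega)]
      ring
  · rintro ⟨j, i⟩ hp _
    simp only
    split_ifs with h <;> (intro h2; rw [Prod.mk.injEq] at h2; omega)
  · rintro ⟨j, i⟩ hp
    rw [Finset.mem_product, Finset.mem_range, Finset.mem_range] at hp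
    simp only at hp ⊢
    split_ifs with h <;> rw [Finset.mem_product, Finset.mem_range, Finset.mem_range] <;>
      simp only <;> omega
  · rintro ⟨j, i⟩ hp
    simp only
    by_cases h : i < j
    · rw [if_pos h]
      simp only
      rw [if_neg (by omega), Prod.mk.injEq]
      omega
    · rw [if_neg h]
      simp only
      rw [if_pos (by omega), Prod.mk.injEq]
      omega

theorem dd_zero {R : Type} [CommRing R] (q : P k →+* R) {s : ℕ} {f : P k} (hf : IsC s f)
    (H : ∀ i, 1 ≤ i → i ≤ s + 1 → q (D (i + 1) (D i f)) = q (D i (D i f))) :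
    q (d (s + 1) (d s f)) = 0 := by
  rw [d_eq hf.d, map_sum]
  have e : ∀ j, q ((-1) ^ j * D j (d s f))
      = ∑ i ∈ range (s + 2), (-1 : R) ^ (j + i) * q (D j (D i f)) := by
    intro j
    rw [d_eq hf, map_sum, Finset.mul_sum, map_sum]
    refine Finset.sum_congr rfl fun i _ => ?_
    simp only [map_mul, map_pow, map_neg, map_one]
    ring
  rw [Finset.sum_congr rfl fun j _ => e j, ← Finset.sum_product']
  refine cancel (s + 2) (fun i j => q (D j (D i f))) ?_
  intro i j hij hj
  rcases Nat.eq_zero_or_pos i with h0 | h0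
  · rw [← AlgHom.comp_apply, D_D hij (Or.inl h0), AlgHom.comp_apply]
  · rcases Nat.lt_or_ge i j with h1 | h1
    · rw [← AlgHom.comp_apply, D_D hij (Or.inr h1), AlgHom.comp_apply]
    · obtain rfl : i = j := by omega
      exact H i h0 (by omega)

end gen

end Vale.Agent.P236
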