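import Mathlib

/-! Polynomial cochains on three coordinates `ξ₁, ξ₂, ξ₃`, slots indexed by `ℕ`. -/

namespace Vale.Agent.P236

open MvPolynomial Finset

/-- The polynomial ring on `x_i, y_i, z_i` (slot `i`). -/
abbrev P (k : Type) [CommRing k] := MvPolynomial (ℕ × Fin 3) k

section gen

variable {k : Type} [CommRing k]

/-- The coproduct of the three coordinates, in slots `i`, `i+1`. -/
noncomputable def dv (i : ℕ) (n : Fin 3) : P k :=
  if n = 0 then X (i, 0) + X (i + 1, 0)
  else if n = 1 then X (i, 1) + X (i, 0) ^ 3 * X (i + 1, 0) + X (i + 1, 1)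
  else X (i, 2) + X (i, 1) ^ 3 * X (i + 1, 0) + X (i, 0) ^ 9 * X (i + 1, 1) + X (i + 1, 2)

noncomputable def Dg (j : ℕ) (p : ℕ × Fin 3) : P k :=
  if j = 0 then X (p.1 + 1, p.2)
  else if p.1 + 1 < j then X p
  else if p.1 + 1 = j then dv p.1 p.2
  else X (p.1 + 1, p.2)

/-- The coface maps. -/
noncomputable def D (j : ℕ) : P k →ₐ[k] P k := aeval (Dg j)

/-- The shift of the slots. -/
noncomputable def T (s : ℕ) : P k →ₐ[k] P k := aeval (fun p => X (p.1 + s, p.2))

/-- The projection onto the cochains with `s` slots. -/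
noncomputable def rho (s : ℕ) : P k →ₐ[k] P k := aeval (fun p => if p.1 < s then X p else 0)

/-- The substitution `X ↦ X³`. -/
noncomputable def psi : P k →ₐ[k] P k := aeval (fun p => X p ^ 3)

lemma D_X (j : ℕ) (p : ℕ × Fin 3) : D j (X p : P k) = Dg j p := by simp [D]
lemma T_X (s : ℕ) (p : ℕ × Fin 3) : T s (X p : P k) = X (p.1 + s, p.2) := by simp [T]
lemma rho_X (s : ℕ) (p : ℕ × Fin 3) : rho s (X p : P k) = if p.1 < s then X p else 0 := by
  simp [rho]
lemma psi_X (p : ℕ × Fin 3) : psi (X p : P k) = X p ^ 3 := by simp [psi]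

lemma D_X0 (i : ℕ) (n : Fin 3) : D 0 (X (i, n) : P k) = X (i + 1, n) := by simp [D_X, Dg]
lemma D_Xlt {j i : ℕ} (h : i + 1 < j) (n : Fin 3) : D j (X (i, n) : P k) = X (i, n) := by
  rw [D_X, Dg, if_neg (by omega), if_pos (by simpa using h)]
lemma D_Xeq {j i : ℕ} (h : i + 1 = j) (n : Fin 3) : D j (X (i, n) : P k) = dv i n := by
  rw [D_X, Dg, if_neg (by omega), if_neg (by simp; omega), if_pos (by simpa using h)]
lemma D_Xgt {j i : ℕ} (h : j < i + 1) (n : Fin 3) : D j (X (i, n) : P k) = X (i + 1, n) := by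
  rw [D_X, Dg]
  split_ifs <;> first | rfl | (simp at *; omega)

lemma D_T {j s : ℕ} (h : j ≤ s) : (D j : P k →ₐ[k] P k).comp (T s) = T (s + 1) := by
  apply MvPolynomial.algHom_ext
  rintro ⟨i, n⟩
  simp only [AlgHom.comp_apply, T_X]
  rw [D_Xgt (by omega)]
  congr 1

lemma D_T' (j s : ℕ) : (D (s + (j + 1)) : P k →ₐ[k] P k).comp (T s) = (T s).comp (D (j + 1)) := by
  apply MvPolynomial.algHom_ext
  rintro ⟨i, n⟩
  simp only [AlgHom.comp_apply, T_X]
  rcases lt_trichotomy i j with h | h | h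
  · rw [D_Xlt (by omega), D_Xlt (by omega), T_X]
  · subst h
    rw [D_Xeq (by omega), D_Xeq (by omega)]
    fin_cases n <;> simp [dv, T_X, add_right_comm]
  · rw [D_Xgt (by omega), D_Xgt (by omega), T_X]
    congr 2
    omega

lemma D_rho {m s : ℕ} (h : s ≤ m) : (D (m + 1) : P k →ₐ[k] P k).comp (rho s) = rho s := by
  apply MvPolynomial.algHom_ext
  rintro ⟨i, n⟩
  simp only [AlgHom.comp_apply, rho_X]
  split_ifs with h1
  · rw [D_Xlt (by omega)]
  · simp

lemma rho_D_rho (j s : ℕ) :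
    ((rho (s + 1) : P k →ₐ[k] P k).comp (D j)).comp (rho s) = (D j).comp (rho s) := by
  apply MvPolynomial.algHom_ext
  rintro ⟨i, n⟩
  simp only [AlgHom.comp_apply, rho_X]
  split_ifs with h1
  · rcases lt_trichotomy (i + 1) j with h | h | h
    · rw [D_Xlt (by omega), rho_X, if_pos (by simp; omega)]
    · rw [D_Xeq (by omega)]
      have h2 : i < s + 1 := by omega
      have h3 : i < s := by omega
      fin_cases n <;> simp [dv, rho_X, h2, h3]
    · rw [D_Xgt (by omega), rho_X, if_pos (by simp; omega)]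
  · simp

lemma rho_psi (s : ℕ) : (rho s : P k →ₐ[k] P k).comp psi = psi.comp (rho s) := by
  apply MvPolynomial.algHom_ext
  rintro ⟨i, n⟩
  simp only [AlgHom.comp_apply, rho_X, psi_X, map_pow]
  split_ifs with h1
  · rw [psi_X]
  · simp

lemma rho_T (s t : ℕ) :
    ((rho (s + t) : P k →ₐ[k] P k).comp (T s)).comp (rho t) = (T s).comp (rho t) := by
  apply MvPolynomial.algHom_ext
  rintro ⟨i, n⟩
  simp only [AlgHom.comp_apply, rho_X]
  split_ifs with h1
  · rw [T_X, rho_X, if_pos (by simp; omega)]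
  · simp

lemma rho_rho {s t : ℕ} (h : s ≤ t) : (rho t : P k →ₐ[k] P k).comp (rho s) = rho s := by
  apply MvPolynomial.algHom_ext
  rintro ⟨i, n⟩
  simp only [AlgHom.comp_apply, rho_X]
  split_ifs with h1
  · rw [rho_X, if_pos (by simp; omega)]
  · simp

lemma psi_T (s : ℕ) : (psi : P k →ₐ[k] P k).comp (T s) = (T s).comp psi := by
  apply MvPolynomial.algHom_ext
  rintro ⟨i, n⟩
  simp only [AlgHom.comp_apply, T_X, psi_X, map_pow]

lemma T_T (s t : ℕ) : (T s : P k →ₐ[k] P k).comp (T t) = T (s + t) := by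
  apply MvPolynomial.algHom_ext
  rintro ⟨i, n⟩
  simp only [AlgHom.comp_apply, T_X]
  congr 2
  omega

/-- exact cosimplicial identities -/
lemma D_D {i j : ℕ} (h : i ≤ j) (h' : i = 0 ∨ i < j) :
    (D (j + 1) : P k →ₐ[k] P k).comp (D i) = (D i).comp (D j) := by
  apply MvPolynomial.algHom_ext
  rintro ⟨a, n⟩
  simp only [AlgHom.comp_apply]
  rcases lt_trichotomy (a + 1) i with h1 | h1 | h1
  · rw [D_Xlt h1, D_Xlt (by omega), D_Xlt (by omega), D_Xlt h1]
  · rw [D_Xeq h1, D_Xlt (by omega), D_Xeq h1]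
    fin_cases n <;> simp [dv, D_Xlt (k := k) (show a + 1 < j + 1 by omega),
      D_Xlt (k := k) (show a + 1 + 1 < j + 1 by omega)]
  · rw [D_Xgt h1]
    rcases lt_trichotomy (a + 1) j with h2 | h2 | h2
    · rw [D_Xlt (by omega), D_Xlt (by omega), D_Xgt h1]
    · rw [D_Xeq (by omega), D_Xeq (by omega)]
      fin_cases n <;> simp [dv, D_Xgt (k := k) (show i < a + 1 by omega),
        D_Xgt (k := k) (show i < a + 1 + 1 by omega)]
    · rw [D_Xgt (by omega), D_Xgt (by omega), D_Xgt (by omega)]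

end gen

end Vale.Agent.P236
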