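import Mathlib

/-! The cobar complex of the dual Steenrod algebra at the prime `3`.

`U` is the free graded commutative algebra over `𝔽₃` on the even generators `ξ_{n+1}` and the odd
generators `τ_n` in the slots `k = 0, 1, 2, …`.  The subalgebra generated by the slots `k < s` is
the `s`-fold tensor power of the dual Steenrod algebra
`𝔽₃[ξ₁, ξ₂, …] ⊗ E(τ₀, τ₁, …)` (graded tensor product). -/

namespace Vale.Agent.P236

/-- Generators: `xi k n` is `ξ_{n+1}` in slot `k`, and `tau k n` is `τ_n` in slot `k`. -/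
inductive Gen : Type
  | xi (k n : ℕ)
  | tau (k n : ℕ)

/-- The generator `g` of the free algebra. -/
def fr (g : Gen) : FreeAlgebra (ZMod 3) Gen := FreeAlgebra.ι (ZMod 3) g

/-- The `ξ`'s are central and the `τ`'s anticommute (so that `τ² = 0`). -/
inductive Rel : FreeAlgebra (ZMod 3) Gen → FreeAlgebra (ZMod 3) Gen → Prop
  | comm (k n : ℕ) (g : Gen) : Rel (fr (.xi k n) * fr g) (fr g * fr (.xi k n))
  | anti (k n l m : ℕ) : Rel (fr (.tau k n) * fr (.tau l m)) (-(fr (.tau l m) * fr (.tau k n)))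

/-- The free graded commutative algebra. -/
def U : Type := RingQuot Rel

noncomputable instance instRingU : Ring U := RingQuot.instRing Rel

noncomputable instance instAlgebraU : Algebra (ZMod 3) U := RingQuot.instAlgebra Rel

lemma sum_mulU {ι : Type} (I : Finset ι) (f : ι → U) (v : U) :
    (∑ i ∈ I, f i) * v = ∑ i ∈ I, f i * v := Finset.sum_mul I f v

lemma mul_sumU {ι : Type} (I : Finset ι) (f : ι → U) (v : U) :
    v * (∑ i ∈ I, f i) = ∑ i ∈ I, v * f i := Finset.mul_sum I f v

lemma neg_sumU {ι : Type} (I : Finset ι) (f : ι → U) :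
    -(∑ i ∈ I, f i) = ∑ i ∈ I, -f i := (Finset.sum_neg_distrib f).symm

/-- The quotient map. -/
noncomputable def quo : FreeAlgebra (ZMod 3) Gen →ₐ[ZMod 3] U := RingQuot.mkAlgHom (ZMod 3) Rel

lemma quo_rel {a b : FreeAlgebra (ZMod 3) Gen} (h : Rel a b) : quo a = quo b :=
  RingQuot.mkAlgHom_rel (ZMod 3) h

lemma quo_surj : Function.Surjective quo := RingQuot.mkAlgHom_surjective (ZMod 3) Rel

/-- The class of a generator. -/
noncomputable def gen (g : Gen) : U := quo (fr g)

/-- `ξ_n` in slot `k`, with `ξ₀ = 1`. -/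
noncomputable def xi (k : ℕ) : ℕ → U
  | 0 => 1
  | n + 1 => gen (.xi k n)

/-- `τ_n` in slot `k`. -/
noncomputable def tau (k n : ℕ) : U := gen (.tau k n)

lemma gen_comm (k n : ℕ) (g : Gen) : gen (.xi k n) * gen g = gen g * gen (.xi k n) := by
  unfold gen
  rw [← map_mul, ← map_mul]
  exact quo_rel (Rel.comm k n g)

lemma gen_anti (k n l m : ℕ) : tau k n * tau l m = -(tau l m * tau k n) := by
  unfold tau gen
  rw [← map_mul, ← map_mul, ← map_neg]
  exact quo_rel (Rel.anti k n l m)

lemma lift_ok (f : Gen → U) (hc : ∀ k n g, f (.xi k n) * f g = f g * f (.xi k n))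
    (ha : ∀ k n l m, f (.tau k n) * f (.tau l m) = -(f (.tau l m) * f (.tau k n)))
    ⦃a b : FreeAlgebra (ZMod 3) Gen⦄ (h : Rel a b) :
    FreeAlgebra.lift (ZMod 3) f a = FreeAlgebra.lift (ZMod 3) f b := by
  cases h with
  | comm k n g => simp only [fr, map_mul, FreeAlgebra.lift_ι_apply]; exact hc k n g
  | anti k n l m => simp only [fr, map_mul, map_neg, FreeAlgebra.lift_ι_apply]; exact ha k n l m

/-- The algebra map with given values on the generators. -/
noncomputable def lift (f : Gen → U) (hc : ∀ k n g, f (.xi k n) * f g = f g * f (.xi k n))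
    (ha : ∀ k n l m, f (.tau k n) * f (.tau l m) = -(f (.tau l m) * f (.tau k n))) :
    U →ₐ[ZMod 3] U :=
  RingQuot.liftAlgHom (ZMod 3) ⟨FreeAlgebra.lift (ZMod 3) f, lift_ok f hc ha⟩

lemma lift_gen (f : Gen → U) (hc) (ha) (g : Gen) : lift f hc ha (gen g) = f g :=
  (RingQuot.liftAlgHom_mkAlgHom_apply (ZMod 3) (FreeAlgebra.lift (ZMod 3) f)
    (lift_ok f hc ha) (fr g)).trans (FreeAlgebra.lift_ι_apply _ _)

lemma hom_ext {f g : U →ₐ[ZMod 3] U} (h : ∀ x, f (gen x) = g (gen x)) : f = g := by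
  have key : f.comp quo = g.comp quo := by
    apply FreeAlgebra.hom_ext
    funext x
    exact h x
  ext u
  obtain ⟨v, rfl⟩ := quo_surj u
  exact DFunLike.congr_fun key v

/-- `ξ_n` is central. -/
lemma xi_central (k n : ℕ) (u : U) : xi k n * u = u * xi k n := by
  cases n with
  | zero => simp [xi]
  | succ n =>
    have key : ∀ v : FreeAlgebra (ZMod 3) Gen,
        gen (.xi k n) * quo v = quo v * gen (.xi k n) := by
      intro v
      induction v using FreeAlgebra.induction with
      | grade0 r => rw [AlgHom.commutes]; exact (Algebra.commutes r _).symm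
      | grade1 g => exact gen_comm k n g
      | mul a b ha hb => rw [map_mul, ← mul_assoc, ha, mul_assoc, hb, mul_assoc]
      | add a b ha hb => rw [map_add, mul_add, add_mul, ha, hb]
    obtain ⟨v, rfl⟩ := quo_surj u
    exact key v

/-- The diagonal of `ξ_n` in the slots `k`, `k + 1`: `Σ ξ_{n-i}^{3^i} ⊗ ξ_i`. -/
noncomputable def diagXi (k n : ℕ) : U :=
  ∑ i ∈ Finset.range (n + 1), xi k (n - i) ^ 3 ^ i * xi (k + 1) i

/-- The diagonal of `τ_n` in the slots `k`, `k + 1`: `τ_n ⊗ 1 + Σ ξ_{n-i}^{3^i} ⊗ τ_i`. -/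
noncomputable def diagTau (k n : ℕ) : U :=
  tau k n + ∑ i ∈ Finset.range (n + 1), xi k (n - i) ^ 3 ^ i * tau (k + 1) i

/-- The values of the `j`-th coface on the generators: the slots `k < j - 1` are fixed, the
diagonal is applied to slot `j - 1`, and the slots `k ≥ j` are shifted by one. -/
noncomputable def cofaceGen (j : ℕ) : Gen → U
  | .xi k n => if k + 1 < j then xi k (n + 1) else if k + 1 = j then diagXi k (n + 1)
      else xi (k + 1) (n + 1)
  | .tau k n => if k + 1 < j then tau k n else if k + 1 = j then diagTau k n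
      else tau (k + 1) n

/-- An element commuting with everything. -/
def Cent (u : U) : Prop := ∀ v : U, u * v = v * u

lemma Cent.xi (k n : ℕ) : Cent (xi k n) := xi_central k n
lemma Cent.one : Cent 1 := fun v => by rw [one_mul, mul_one]
lemma Cent.mul {a b : U} (ha : Cent a) (hb : Cent b) : Cent (a * b) := fun v => by
  rw [mul_assoc, hb v, ← mul_assoc, ha v, mul_assoc]
lemma Cent.pow {a : U} (ha : Cent a) (n : ℕ) : Cent (a ^ n) := by
  induction n with
  | zero => rw [pow_zero]; exact Cent.one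
  | succ n ih => rw [pow_succ]; exact ih.mul ha
lemma Cent.sum {ι : Type} (I : Finset ι) (f : ι → U) (h : ∀ i, Cent (f i)) :
    Cent (∑ i ∈ I, f i) := fun v => by
  rw [sum_mulU, mul_sumU]
  exact Finset.sum_congr rfl fun i _ => h i v

lemma cent_cofaceGen (j k n : ℕ) : Cent (cofaceGen j (.xi k n)) := by
  simp only [cofaceGen]
  split_ifs
  · exact Cent.xi _ _
  · exact Cent.sum _ _ fun i => ((Cent.xi _ _).pow _).mul (Cent.xi _ _)
  · exact Cent.xi _ _

/-- Finite sums of `τ`'s with central coefficients; any two of them anticommute. -/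
def Odd (u : U) : Prop := ∀ k n, ∀ c : U, Cent c → u * (c * tau k n) = -(c * tau k n * u)

lemma odd_tau (k n : ℕ) : Odd (tau k n) := fun l m c hc => by
  rw [← mul_assoc, ← hc, mul_assoc, gen_anti, mul_neg, mul_assoc]

lemma Odd.mul {u c : U} (hu : Odd u) (hc : Cent c) : Odd (c * u) := fun k n e he => by
  rw [mul_assoc, hu k n e he, mul_neg, hc, mul_assoc, ← hc]

lemma Odd.add {u v : U} (hu : Odd u) (hv : Odd v) : Odd (u + v) := fun k n c hc => by
  rw [add_mul, mul_add, neg_add, hu k n c hc, hv k n c hc]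

lemma Odd.zero : Odd 0 := fun k n c hc => by rw [zero_mul, mul_zero, neg_zero]

lemma Odd.sum {ι : Type} (I : Finset ι) (f : ι → U) (h : ∀ i, Odd (f i)) :
    Odd (∑ i ∈ I, f i) := fun k n c hc => by
  rw [sum_mulU, mul_sumU, neg_sumU]
  exact Finset.sum_congr rfl fun i _ => h i k n c hc

lemma odd_cofaceGen (j k n : ℕ) : Odd (cofaceGen j (.tau k n)) := by
  simp only [cofaceGen]
  split_ifs
  · exact odd_tau _ _
  · exact (odd_tau _ _).add (Odd.sum _ _ fun i => (odd_tau _ _).mul ((Cent.xi _ _).pow _))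
  · exact odd_tau _ _

lemma Odd.anti {u : U} (hu : Odd u) (j k n : ℕ) :
    u * cofaceGen j (.tau k n) = -(cofaceGen j (.tau k n) * u) := by
  have h1 : ∀ k n, u * tau k n = -(tau k n * u) := fun k n => by
    have := hu k n 1 Cent.one
    rwa [one_mul] at this
  simp only [cofaceGen]
  split_ifs
  · exact h1 _ _
  · unfold diagTau
    rw [mul_add, add_mul, neg_add, h1, mul_sumU, sum_mulU, neg_sumU]
    congr 1
    exact Finset.sum_congr rfl fun i _ => hu _ _ _ ((Cent.xi _ _).pow _)
  · exact h1 _ _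

/-- The `j`-th coface map: `D 0 f = 1 ⊗ f`, and `D (j + 1)` applies the diagonal to slot `j`. -/
noncomputable def coface (j : ℕ) : U →ₐ[ZMod 3] U :=
  lift (cofaceGen j) (fun k n _ => cent_cofaceGen j k n _)
    (fun k n l m => (odd_cofaceGen j k n).anti j l m)

/-- The shift of all slots by `s`: `f ↦ 1 ⊗ ⋯ ⊗ 1 ⊗ f`. -/
noncomputable def shift (s : ℕ) : U →ₐ[ZMod 3] U :=
  lift (fun g => match g with
      | .xi k n => xi (k + s) (n + 1)
      | .tau k n => tau (k + s) n)
    (fun _ _ _ => Cent.xi _ _ _) (fun _ _ _ _ => gen_anti _ _ _ _)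

/-- The cochains with `s` slots: the `s`-fold tensor power of the dual Steenrod algebra. -/
noncomputable def Coch (s : ℕ) : Subalgebra (ZMod 3) U :=
  Algebra.adjoin (ZMod 3) {u | ∃ k n, k < s ∧ (u = xi k n ∨ u = tau k n)}

/-- The cobar differential `Σ_{j=0}^{s+1} (-1)^j d^j` on cochains with `s` slots; the last coface
is `f ↦ f ⊗ 1 = f`. -/
noncomputable def cobar (s : ℕ) (f : U) : U :=
  ∑ j ∈ Finset.range (s + 1), (-1) ^ j * coface j f + (-1) ^ (s + 1) * f

/-- The product `f ⊗ g` of a cochain `f` with `s` slots and a cochain `g`. -/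
noncomputable def cup (s : ℕ) (f g : U) : U := f * shift s g

/-- The cocycle `[ξ₁^{3^j}]` representing `h_j`. -/
noncomputable def hCl (j : ℕ) : U := xi 0 1 ^ 3 ^ j

/-- The cocycle `Σ_{0<i<3} (1/3) (3 choose i) [ξ₁^{i 3^j} | ξ₁^{(3-i) 3^j}]` representing `b_j`. -/
noncomputable def bCl (j : ℕ) : U :=
  ∑ i ∈ Finset.Ioo 0 3, (Nat.choose 3 i / 3) • (xi 0 1 ^ (i * 3 ^ j) * xi 1 1 ^ ((3 - i) * 3 ^ j))

end Vale.Agent.P236
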