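import Vale.Agent.P236.Rel

/-! The three basic relations modulo `3`. -/

namespace Vale.Agent.P236

open MvPolynomial Finset

lemma isC_b0 : IsC 2 b0 := by
  unfold b0
  exact (((IsC.X (by norm_num) _).pow _).mul (IsC.X (by norm_num) _)).add
    ((IsC.X (by norm_num) _).mul ((IsC.X (by norm_num) _).pow _))

lemma isC_b1 : IsC 2 b1 := by
  unfold b1
  exact (((IsC.X (by norm_num) _).pow _).mul ((IsC.X (by norm_num) _).pow _)).add
    (((IsC.X (by norm_num) _).pow _).mul ((IsC.X (by norm_num) _).pow _))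

lemma isC_g0 : IsC 2 g0 := by
  unfold g0
  exact ((IsC.X (by norm_num) _).mul (IsC.X (by norm_num) _)).sub
    (((IsC.X (by norm_num) _).pow _).mul ((IsC.X (by norm_num) _).pow _))

lemma isC_t9 : IsC 2 t9 := by
  unfold IsC t9
  simp [map_ofNat, rho_X]

lemma isC_c1 : IsC 3 c1 := by
  unfold IsC c1 c1f
  simp [rho_X]

lemma isC_e1 : IsC 4 e1 := by
  unfold IsC e1 e1f
  simp only [map_add, map_sub, map_mul, map_pow, map_ofNat, rho_X]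
  norm_num

lemma psi_b0 : psi b0 = b1 := by
  simp only [b0, b1, map_add, map_mul, map_pow, psi_X]
  ring

lemma div9 {a : P ℤ} (h : ((9 : ℕ) : P ℤ) ∣ 3 * a) : (3 : P ℤ) ∣ a := by
  obtain ⟨c, hc⟩ := h
  refine ⟨c, three_cancel ?_⟩
  rw [hc]; push_cast; ring

lemma d_three (s : ℕ) (f : P ℤ) : d s (3 * f) = 3 * d s f := by
  have := d_natmul (k := ℤ) s 3 f
  simpa only [Nat.cast_ofNat] using this

lemma IsC.cup' {k : Type} [CommRing k] {s t u : ℕ} {f g : P k} (hf : IsC s f) (hg : IsC t g)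
    (h : s + t = u) : IsC u (f * Vale.Agent.P236.T s g) := by
  subst h; exact hf.cup hg

lemma leibniz' {k : Type} [CommRing k] {s u : ℕ} (t : ℕ) {f : P k} (hf : IsC s f) (g : P k)
    (h : s + t = u) :
    d u (f * T s g) = d s f * T (s + 1) g + (-1) ^ s * (f * T s (d t g)) := by
  subst h; exact leibniz t hf g

/-- `h₁ ⌣ b₁ - b₀ ⌣ h₂` is a coboundary. -/
theorem relA : ∃ L : P ℤ, IsC 2 L ∧
    (3 : P ℤ) ∣ X (0, 0) ^ 3 * T 1 b1 - b0 * T 2 (X (0, 0) ^ 9) - d 2 L := by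
  obtain ⟨M, hM, h⟩ := theta (s := 1) (c := X (0, 1) - X (0, 0) ^ 4)
    (e := -(X (0, 0) * X (1, 0) ^ 3 + 2 * X (0, 0) ^ 2 * X (1, 0) ^ 2 + X (0, 0) ^ 3 * X (1, 0)))
    ((IsC.X (by norm_num) _).sub ((IsC.X (by norm_num) _).pow _))
    (by unfold IsC; simp [map_ofNat, rho_X])
  refine ⟨M, hM, div9 ?_⟩
  rw [F5] at h
  have e1 : psi (X (0, 0) * X (1, 0) ^ 3 : P ℤ) = X (0, 0) ^ 3 * T 1 (X (0, 0) ^ 9) := by
    simp only [map_mul, map_pow, psi_X, T_X]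
    ring
  have e2 := leibniz (k := ℤ) 1 (f := X (0, 0) ^ 3) ((IsC.X (s := 1) (by norm_num) 0).pow 3)
    (X (0, 0) ^ 9)
  rw [e1, show (1 : ℕ) + 1 = 1 + 1 from rfl, e2, F2, F3] at h
  obtain ⟨w, hw⟩ := h
  refine ⟨w - X (0, 0) ^ 3 * (T 1 t9 + 9 * 0) - 9 * (X (0, 0) ^ 3 * T 1 b1) , ?_⟩
  push_cast at hw ⊢
  simp only [map_neg, map_mul, map_add, map_ofNat] at hw ⊢
  linear_combination hw


/-- `x ↦ (1/3) d x` applied to the Frobenius twist of `g0`. -/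
theorem relX : ∃ Z : P ℤ, IsC 3 Z ∧ d 2 (psi g0) = 3 * Z ∧ (3 : P ℤ) ∣ d 3 Z ∧
    (9 : P ℤ) ∣ d 2 (psi (psi g0)) - 3 * psi Z := by
  obtain ⟨w, hw⟩ := dpsi_cong (s := 2) g0
  rw [F8, map_mul, map_ofNat] at hw
  push_cast at hw
  have h1 : d 2 (psi g0) = 3 * (w + psi (b0 * X (2, 0) ^ 2 - X (0, 0) ^ 3 * X (1, 0) * X (2, 0))) := by
    linear_combination hw
  refine ⟨_, IsC.div isC_g0.psi.d h1, h1, ?_, ?_⟩
  · have h2 := dd9 isC_g0
    rw [show (2 : ℕ) + 1 = 3 from rfl, h1, d_three] at h2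
    exact div9 h2
  · have h2 := dpsi_psi_cong (s := 2) g0
    rw [h1] at h2
    simpa only [map_mul, map_ofNat, Nat.cast_ofNat] using h2

lemma b1_cong : (9 : P ℤ) ∣ d 2 b1 + 3 * d 2 t9 := ⟨-3 * d 2 b1, by linear_combination F4⟩

lemma isC_x9 : IsC 1 (X (0, 0) ^ 9 : P ℤ) := (IsC.X (s := 1) (by norm_num) 0).pow 9

/-- `b₁ ⌣ b₁ - Z ⌣ h₁` is a coboundary. -/
theorem relB {Z : P ℤ} (hZ : d 2 (psi g0) = 3 * Z) : ∃ K : P ℤ, IsC 3 K ∧
    (3 : P ℤ) ∣ b1 * T 2 b1 - Z * T 3 (X (0, 0) ^ 3) + d 3 K := by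
  obtain ⟨M, hM, h⟩ := theta (s := 2) (c := -(X (0, 1) * X (1, 0) ^ 2))
    (e := X (0, 1) * X (1, 0) * X (2, 0))
    ((IsC.X (by norm_num) _).mul ((IsC.X (by norm_num) _).pow _)).neg
    (((IsC.X (by norm_num) _).mul (IsC.X (by norm_num) _)).mul (IsC.X (by norm_num) _))
  refine ⟨c1 + X (0, 0) ^ 9 * T 1 t9 + M,
    (isC_c1.add (isC_x9.cup' isC_t9 (by norm_num))).add hM, div9 ?_⟩
  rw [F6] at h
  have h1 : psi (g0 * T 2 (X (0, 0)) + X (0, 0) ^ 3 * T 1 b0 : P ℤ)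
      = psi g0 * T 2 (X (0, 0) ^ 3) + X (0, 0) ^ 9 * T 1 b1 := by
    rw [map_add, map_mul, map_mul, ← AlgHom.comp_apply psi (T 1), psi_T, AlgHom.comp_apply, psi_b0]
    simp only [map_pow, psi_X, T_X]
    ring
  have e2 := leibniz' (k := ℤ) 1 isC_g0.psi (X (0, 0) ^ 3) (show 2 + 1 = 3 by norm_num)
  have e3 := leibniz' (k := ℤ) 2 isC_x9 b1 (show 1 + 2 = 3 by norm_num)
  have e4 := leibniz' (k := ℤ) 2 isC_x9 t9 (show 1 + 2 = 3 by norm_num)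
  rw [h1, show (2 : ℕ) + 1 = 3 from rfl, d_add, e2, e3, F2, F3, hZ] at h
  rw [d_add, d_add, e4, F3]
  obtain ⟨w, hw⟩ := h
  obtain ⟨v, hv⟩ := b1_cong
  have hv' : d 2 b1 = 9 * v - 3 * d 2 t9 := by linear_combination hv
  have hF7 := F7
  rw [hv'] at hw
  push_cast at hw ⊢
  simp only [map_neg, map_sub, map_mul, map_add, map_ofNat] at hw ⊢
  refine ⟨-w - 9 * (b1 * T 2 b1) - 28 * (b1 * T 2 t9) - t9 * T 2 b1 - 3 * (t9 * T 2 t9)
    - X (0, 0) ^ 9 * T 1 v - e1, ?_⟩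
  linear_combination -hw + 3 * hF7

/-- `ψZ ⌣ b₁` is a coboundary. -/
theorem relC {Z : P ℤ} (hZ : (9 : P ℤ) ∣ d 2 (psi (psi g0)) - 3 * psi Z) :
    ∃ M : P ℤ, IsC 4 M ∧ (3 : P ℤ) ∣ psi Z * T 3 b1 - d 4 M := by
  obtain ⟨M, hM, h⟩ := theta (s := 3) (c := c1) (e := e1) isC_c1 isC_e1
  have hG : IsC 2 (psi (psi g0)) := isC_g0.psi.psi
  refine ⟨psi (psi g0) * T 2 t9 + M, (hG.cup' isC_t9 (by norm_num)).add hM, div9 ?_⟩
  rw [F7] at h
  have e1 : psi (psi g0 * T 2 b0) = psi (psi g0) * T 2 b1 := by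
    rw [map_mul, ← AlgHom.comp_apply psi (T 2), psi_T, AlgHom.comp_apply, psi_b0]
  have e2 := leibniz' (k := ℤ) 2 hG b1 (show 2 + 2 = 4 by norm_num)
  have e3 := leibniz' (k := ℤ) 2 hG t9 (show 2 + 2 = 4 by norm_num)
  rw [e1, show (3 : ℕ) + 1 = 4 from rfl, e2] at h
  rw [d_add, e3]
  obtain ⟨w, hw⟩ := h
  obtain ⟨v, hv⟩ := b1_cong
  obtain ⟨u, hu⟩ := hZ
  have hv' : d 2 b1 = 9 * v - 3 * d 2 t9 := by linear_combination hv
  have hu' : d 2 (psi (psi g0)) = 9 * u + 3 * psi Z := by linear_combination hu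
  rw [hv', hu'] at hw
  rw [hu']
  push_cast at hw ⊢
  simp only [map_neg, map_sub, map_mul, map_add, map_ofNat] at hw ⊢
  refine ⟨w - psi Z * T 3 t9 - u * T 3 b1 - 3 * (u * T 3 t9) - psi (psi g0) * T 2 v, ?_⟩
  linear_combination hw

end Vale.Agent.P236
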