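import Vale.Agent.P236.Theta

/-! Explicit cochains and the basic relations over `ℤ`. -/

namespace Vale.Agent.P236

open MvPolynomial Finset

noncomputable section

def b0 : P ℤ := X (0, 0) ^ 2 * X (1, 0) + X (0, 0) * X (1, 0) ^ 2
def b1 : P ℤ := X (0, 0) ^ 6 * X (1, 0) ^ 3 + X (0, 0) ^ 3 * X (1, 0) ^ 6
def t9 : P ℤ := X (0, 0) ^ 8 * X (1, 0) + 4 * X (0, 0) ^ 7 * X (1, 0) ^ 2 +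
  14 * X (0, 0) ^ 5 * X (1, 0) ^ 4 + 14 * X (0, 0) ^ 4 * X (1, 0) ^ 5 +
  4 * X (0, 0) ^ 2 * X (1, 0) ^ 7 + X (0, 0) * X (1, 0) ^ 8
def g0 : P ℤ := X (0, 1) * X (1, 0) - X (0, 0) ^ 3 * X (1, 0) ^ 2
def c1f {R : Type} [CommRing R] (x0 x1 x2 y0 y1 z0 : R) : R :=
  -(x0 ^ 9 * x1 ^ 3 * y1 * x2 ^ 2) - x0 ^ 9 * y1 ^ 2 * x2 - y0 ^ 3 * x1 ^ 4 * x2 ^ 2 +
  y0 ^ 3 * x1 * y1 * x2 - y0 ^ 3 * y1 * x2 ^ 2 - z0 * x1 ^ 3 * x2 ^ 2 + z0 * y1 * x2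

def c1 : P ℤ := c1f (X (0, 0)) (X (1, 0)) (X (2, 0)) (X (0, 1)) (X (1, 1)) (X (0, 2))

def e1f {R : Type} [CommRing R] (x0 x1 x2 x3 y0 y1 y2 z0 : R) : R :=
  x0 ^ 9 * x1 ^ 5 * x2 ^ 2 * x3 ^ 2 + x0 ^ 9 * x1 ^ 4 * x2 ^ 3 * x3 ^ 2
  + x0 ^ 9 * x1 ^ 3 * x2 * y2 * x3 + x0 ^ 9 * x1 ^ 2 * y1 * x2 * x3 ^ 2
  + x0 ^ 9 * x1 ^ 2 * x2 * y2 * x3 ^ 2 + x0 ^ 9 * x1 * y1 * x2 ^ 2 * x3 ^ 2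
  + x0 ^ 9 * x1 * x2 ^ 2 * y2 * x3 ^ 2 + x0 ^ 9 * y1 * y2 * x3
  - 3 * x0 ^ 8 * x1 * x2 ^ 3 * y2 * x3 ^ 2 - 3 * x0 ^ 8 * x1 * y2 ^ 2 * x3
  - 12 * x0 ^ 7 * x1 ^ 2 * x2 ^ 3 * y2 * x3 ^ 2 - 12 * x0 ^ 7 * x1 ^ 2 * y2 ^ 2 * x3
  - x0 ^ 6 * y0 * x1 ^ 2 * x2 ^ 4 * x3 ^ 2 + x0 ^ 6 * y0 * x1 ^ 2 * x2 * y2 * x3
  - x0 ^ 6 * y0 * x1 ^ 2 * y2 * x3 ^ 2 - 28 * x0 ^ 6 * x1 ^ 3 * x2 ^ 3 * y2 * x3 ^ 2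
  - 28 * x0 ^ 6 * x1 ^ 3 * y2 ^ 2 * x3 - x0 ^ 6 * x1 ^ 2 * y1 * x2 ^ 4 * x3 ^ 2
  + x0 ^ 6 * x1 ^ 2 * y1 * x2 * y2 * x3 - x0 ^ 6 * x1 ^ 2 * y1 * y2 * x3 ^ 2
  - 42 * x0 ^ 5 * x1 ^ 4 * x2 ^ 3 * y2 * x3 ^ 2 - 42 * x0 ^ 5 * x1 ^ 4 * y2 ^ 2 * x3
  - 42 * x0 ^ 4 * x1 ^ 5 * x2 ^ 3 * y2 * x3 ^ 2 - 42 * x0 ^ 4 * x1 ^ 5 * y2 ^ 2 * x3
  - x0 ^ 3 * y0 ^ 2 * x1 * x2 ^ 4 * x3 ^ 2 + x0 ^ 3 * y0 ^ 2 * x1 * x2 * y2 * x3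
  - x0 ^ 3 * y0 ^ 2 * x1 * y2 * x3 ^ 2 - 2 * x0 ^ 3 * y0 * x1 * y1 * x2 ^ 4 * x3 ^ 2
  + 2 * x0 ^ 3 * y0 * x1 * y1 * x2 * y2 * x3 - 2 * x0 ^ 3 * y0 * x1 * y1 * y2 * x3 ^ 2
  - 28 * x0 ^ 3 * x1 ^ 6 * x2 ^ 3 * y2 * x3 ^ 2 - 28 * x0 ^ 3 * x1 ^ 6 * y2 ^ 2 * x3
  - x0 ^ 3 * x1 * y1 ^ 2 * x2 ^ 4 * x3 ^ 2 + x0 ^ 3 * x1 * y1 ^ 2 * x2 * y2 * x3
  - x0 ^ 3 * x1 * y1 ^ 2 * y2 * x3 ^ 2 - 12 * x0 ^ 2 * x1 ^ 7 * x2 ^ 3 * y2 * x3 ^ 2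
  - 12 * x0 ^ 2 * x1 ^ 7 * y2 ^ 2 * x3 - 3 * x0 * x1 ^ 8 * x2 ^ 3 * y2 * x3 ^ 2
  - 3 * x0 * x1 ^ 8 * y2 ^ 2 * x3 - y0 ^ 3 * x1 ^ 4 * x2 * x3
  + 2 * y0 ^ 3 * x1 ^ 3 * x2 * x3 ^ 2 + 2 * y0 ^ 3 * x1 ^ 2 * x2 ^ 2 * x3 ^ 2
  + y0 ^ 3 * x1 * x2 ^ 3 * x3 ^ 2 - y0 ^ 3 * y1 * x2 * x3 - y0 ^ 2 * y1 * x2 ^ 4 * x3 ^ 2
  + y0 ^ 2 * y1 * x2 * y2 * x3 - y0 ^ 2 * y1 * y2 * x3 ^ 2 - y0 * y1 ^ 2 * x2 ^ 4 * x3 ^ 2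
  + y0 * y1 ^ 2 * x2 * y2 * x3 - y0 * y1 ^ 2 * y2 * x3 ^ 2 - z0 * x1 ^ 3 * x2 * x3
  + z0 * x1 ^ 2 * x2 * x3 ^ 2 + z0 * x1 * x2 ^ 2 * x3 ^ 2

def e1 : P ℤ := e1f (X (0, 0)) (X (1, 0)) (X (2, 0)) (X (3, 0)) (X (0, 1)) (X (1, 1)) (X (2, 1))
  (X (0, 2))

set_option maxHeartbeats 1000000 in
lemma ring7 {R : Type} [CommRing R] (x0 x1 x2 x3 y0 y1 y2 z0 z1 : R) :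
    c1f x1 x2 x3 y1 y2 z1 - c1f (x0 + x1) x2 x3 (y0 + x0 ^ 3 * x1 + y1) y2
      (z0 + y0 ^ 3 * x1 + x0 ^ 9 * y1 + z1) +
    c1f x0 (x1 + x2) x3 y0 (y1 + x1 ^ 3 * x2 + y2) z0 -
    c1f x0 x1 (x2 + x3) y0 y1 z0 + c1f x0 x1 x2 y0 y1 z0 + 3 * e1f x0 x1 x2 x3 y0 y1 y2 z0 =
    (y0 ^ 3 * x1 ^ 3 - x0 ^ 9 * x1 ^ 6) * (x2 ^ 2 * x3 + x2 * x3 ^ 2) := by
  unfold c1f e1f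
  ring

lemma F7 : d 3 c1 + 3 * e1 = psi g0 * T 2 b0 := by
  have h := ring7 (X (0, 0)) (X (1, 0)) (X (2, 0)) (X (3, 0)) (X (0, 1)) (X (1, 1)) (X (2, 1))
    (X (0, 2)) (X (1, 2) : P ℤ)
  have e : psi g0 * T 2 b0 = ((X (0, 1) ^ 3 * X (1, 0) ^ 3 - X (0, 0) ^ 9 * X (1, 0) ^ 6) *
      (X (2, 0) ^ 2 * X (3, 0) + X (2, 0) * X (3, 0) ^ 2) : P ℤ) := by
    simp only [g0, b0, map_sub, map_mul, map_pow, map_add, psi_X, T_X]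
    ring
  rw [e, ← h, e1]
  simp [d, Finset.sum_range_succ, D_X, Dg, dv0, dv1, dv2, c1, c1f]
  ring

lemma F1 : d 1 (X (0, 0) : P ℤ) = 0 := by
  simp [d, Finset.sum_range_succ, D_X, Dg, dv0]

lemma F1y : d 1 (X (0, 1) : P ℤ) = -(X (0, 0) ^ 3 * X (1, 0)) := by
  simp [d, Finset.sum_range_succ, D_X, Dg, dv1]

lemma F2 : d 1 (X (0, 0) ^ 3 : P ℤ) = -(3 * b0) := by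
  simp [d, Finset.sum_range_succ, D_X, Dg, dv0, b0]
  ring

lemma F3 : d 1 (X (0, 0) ^ 9 : P ℤ) = -(3 * (28 * b1 + 3 * t9)) := by
  simp [d, Finset.sum_range_succ, D_X, Dg, dv0, b1, t9]
  ring

lemma F4 : 28 * d 2 b1 + 3 * d 2 t9 = 0 := by
  simp [map_ofNat, d, Finset.sum_range_succ, D_X, Dg, dv0, b1, t9]
  ring

lemma F5 : d 1 (X (0, 1) - X (0, 0) ^ 4 : P ℤ) + 3 * (-(X (0, 0) * X (1, 0) ^ 3 +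
    2 * X (0, 0) ^ 2 * X (1, 0) ^ 2 + X (0, 0) ^ 3 * X (1, 0))) = X (0, 0) * X (1, 0) ^ 3 := by
  simp [d, Finset.sum_range_succ, D_X, Dg, dv0, dv1]
  ring

lemma F6 : d 2 (-(X (0, 1) * X (1, 0) ^ 2) : P ℤ) + 3 * (X (0, 1) * X (1, 0) * X (2, 0))
    = g0 * T 2 (X (0, 0)) + X (0, 0) ^ 3 * T 1 b0 := by
  simp [d, Finset.sum_range_succ, D_X, Dg, dv0, dv1, g0, b0, T_X]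
  ring

lemma F8 : d 2 g0 = 3 * (b0 * X (2, 0) ^ 2 - X (0, 0) ^ 3 * X (1, 0) * X (2, 0)) := by
  simp [d, Finset.sum_range_succ, D_X, Dg, dv0, dv1, g0, b0]
  ring

end

end Vale.Agent.P236
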