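import Vale.Agent.P236.Calc

/-! Integral lifts: congruences modulo `3` and `9`. -/

namespace Vale.Agent.P236

open MvPolynomial Finset

lemma hom_cong (n : ℕ) (α β : P ℤ →ₐ[ℤ] P ℤ) (h : ∀ p, ((n : ℕ) : P ℤ) ∣ α (X p) - β (X p))
    (f : P ℤ) : ((n : ℕ) : P ℤ) ∣ α f - β f := by
  have : (Ideal.Quotient.mkₐ ℤ (Ideal.span {((n : ℕ) : P ℤ)})).comp α
      = (Ideal.Quotient.mkₐ ℤ (Ideal.span {((n : ℕ) : P ℤ)})).comp β := by
    apply MvPolynomial.algHom_ext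
    intro p
    simp only [AlgHom.comp_apply, Ideal.Quotient.mkₐ_eq_mk]
    rw [Ideal.Quotient.eq, Ideal.mem_span_singleton]
    exact h p
  have h2 := DFunLike.congr_fun this f
  simp only [AlgHom.comp_apply, Ideal.Quotient.mkₐ_eq_mk] at h2
  rwa [Ideal.Quotient.eq, Ideal.mem_span_singleton] at h2

lemma cube_cong {a b : P ℤ} (h : ((3 : ℕ) : P ℤ) ∣ a - b) : ((9 : ℕ) : P ℤ) ∣ a ^ 3 - b ^ 3 := by
  obtain ⟨c, hc⟩ := h
  refine ⟨b ^ 2 * c + 3 * b * c ^ 2 + 3 * c ^ 3, ?_⟩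
  have : a = b + 3 * c := by push_cast at hc; linear_combination hc
  rw [this]; push_cast; ring

lemma int_cube (a : ℤ) : (3 : ℤ) ∣ a ^ 3 - a := by
  have h : a % 3 = 0 ∨ a % 3 = 1 ∨ a % 3 = 2 := by omega
  have e := Int.emod_add_mul_ediv a 3
  rcases h with h | h | h <;> rw [h] at e <;> rw [← e]
  · exact ⟨9 * (a / 3) ^ 3 - a / 3, by ring⟩
  · exact ⟨9 * (a / 3) ^ 3 + 9 * (a / 3) ^ 2 + 2 * (a / 3), by ring⟩
  · exact ⟨9 * (a / 3) ^ 3 + 18 * (a / 3) ^ 2 + 11 * (a / 3) + 2, by ring⟩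

lemma pow_cong (f : P ℤ) : ((3 : ℕ) : P ℤ) ∣ f ^ 3 - psi f := by
  induction f using MvPolynomial.induction_on with
  | C a =>
    obtain ⟨c, hc⟩ := int_cube a
    refine ⟨C c, ?_⟩
    have : psi (C a : P ℤ) = C a := by simp [psi]
    rw [this, ← map_pow, ← map_sub, hc, map_mul]
    simp
  | add p q hp hq =>
    obtain ⟨c, hc⟩ := hp
    obtain ⟨e, he⟩ := hq
    refine ⟨c + e + p ^ 2 * q + p * q ^ 2, ?_⟩
    rw [map_add]
    push_cast at hc he ⊢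
    linear_combination hc + he
  | mul_X p i hp =>
    obtain ⟨c, hc⟩ := hp
    refine ⟨c * X i ^ 3, ?_⟩
    rw [map_mul, psi_X]
    push_cast at hc ⊢
    linear_combination X i ^ 3 * hc

lemma D_psi_cong (j : ℕ) (f : P ℤ) : ((3 : ℕ) : P ℤ) ∣ D j (psi f) - psi (D j f) := by
  have := hom_cong 3 ((D j).comp psi) (psi.comp (D j)) (fun p => by
    simp only [AlgHom.comp_apply, psi_X, map_pow]
    exact pow_cong _) f
  simpa only [AlgHom.comp_apply] using this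

lemma D_psi_psi_cong (j : ℕ) (f : P ℤ) :
    ((9 : ℕ) : P ℤ) ∣ D j (psi (psi f)) - psi (D j (psi f)) := by
  have := hom_cong 9 (((D j).comp psi).comp psi) ((psi.comp (D j)).comp psi) (fun p => by
    simp only [AlgHom.comp_apply, psi_X, map_pow]
    exact cube_cong (pow_cong _)) f
  simpa only [AlgHom.comp_apply] using this

lemma dv0 {k : Type} [CommRing k] (i : ℕ) : (dv i 0 : P k) = X (i, 0) + X (i + 1, 0) := by
  rw [dv, if_pos rfl]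
lemma dv1 {k : Type} [CommRing k] (i : ℕ) :
    (dv i 1 : P k) = X (i, 1) + X (i, 0) ^ 3 * X (i + 1, 0) + X (i + 1, 1) := by
  rw [dv, if_neg (by decide), if_pos rfl]
lemma dv2 {k : Type} [CommRing k] (i : ℕ) : (dv i 2 : P k) =
    X (i, 2) + X (i, 1) ^ 3 * X (i + 1, 0) + X (i, 0) ^ 9 * X (i + 1, 1) + X (i + 1, 2) := by
  rw [dv, if_neg (by decide), if_neg (by decide)]

lemma ring1 {R : Type} [CommRing R] (x0 x1 x2 y0 y1 y2 : R) :
    (y0 + (x0 ^ 3 * (x1 + x2)) + (y1 + x1 ^ 3 * x2 + y2)) -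
      (y0 + x0 ^ 3 * x1 + y1 + (x0 + x1) ^ 3 * x2 + y2)
      = 3 * (-(x0 ^ 2 * x1 + x0 * x1 ^ 2) * x2) := by ring

lemma ring2 {R : Type} [CommRing R] (x0 x1 x2 y0 y1 y2 z0 z1 z2 : R) :
    (z0 + y0 ^ 3 * (x1 + x2) + x0 ^ 9 * (y1 + x1 ^ 3 * x2 + y2) +
        (z1 + y1 ^ 3 * x2 + x1 ^ 9 * y2 + z2)) -
      (z0 + y0 ^ 3 * x1 + x0 ^ 9 * y1 + z1 + (y0 + x0 ^ 3 * x1 + y1) ^ 3 * x2 +
        (x0 + x1) ^ 9 * y2 + z2)
      = 3 * (-(y0 ^ 2 * (x0 ^ 3 * x1 + y1) + y0 * (x0 ^ 3 * x1 + y1) ^ 2 +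
          (x0 ^ 3 * x1) ^ 2 * y1 + (x0 ^ 3 * x1) * y1 ^ 2) * x2 -
        (3 * x0 ^ 8 * x1 + 12 * x0 ^ 7 * x1 ^ 2 + 28 * x0 ^ 6 * x1 ^ 3 + 42 * x0 ^ 5 * x1 ^ 4 +
          42 * x0 ^ 4 * x1 ^ 5 + 28 * x0 ^ 3 * x1 ^ 6 + 12 * x0 ^ 2 * x1 ^ 7 +
          3 * x0 * x1 ^ 8) * y2) := by ring

/-- coassociativity modulo `3` -/
lemma coassoc_X (i : ℕ) (p : ℕ × Fin 3) :
    ((3 : ℕ) : P ℤ) ∣ D (i + 2) (D (i + 1) (X p)) - D (i + 1) (D (i + 1) (X p)) := by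
  obtain ⟨a, n⟩ := p
  rcases lt_trichotomy a i with h | h | h
  · rw [D_Xlt (by omega), D_Xlt (by omega), D_Xlt (by omega), sub_self]
    exact dvd_zero _
  · subst h
    rw [D_Xeq (by omega)]
    have l0 : ∀ n : Fin 3, D (a + 2) (X (a, n) : P ℤ) = X (a, n) := fun n => D_Xlt (by omega) n
    have l1 : ∀ n : Fin 3, D (a + 2) (X (a + 1, n) : P ℤ) = dv (a + 1) n :=
      fun n => D_Xeq (by omega) n
    have l2 : ∀ n : Fin 3, D (a + 1) (X (a, n) : P ℤ) = dv a n := fun n => D_Xeq (by omega) n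
    have l3 : ∀ n : Fin 3, D (a + 1) (X (a + 1, n) : P ℤ) = X (a + 1 + 1, n) :=
      fun n => D_Xgt (by omega) n
    have hn : n = 0 ∨ n = 1 ∨ n = 2 := by revert n; decide
    rcases hn with rfl | rfl | rfl
    · refine ⟨0, ?_⟩
      simp only [dv0, map_add, l0, l1, l2, l3, mul_zero]
      rw [← add_assoc, sub_self]
    · refine ⟨_, (Eq.trans ?_ (ring1 (X (a, 0)) (X (a + 1, 0)) (X (a + 1 + 1, 0)) (X (a, 1))
        (X (a + 1, 1)) (X (a + 1 + 1, 1) : P ℤ)))⟩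
      simp only [dv0, dv1, map_add, map_mul, map_pow, l0, l1, l2, l3]
    · refine ⟨_, (Eq.trans ?_ (ring2 (X (a, 0)) (X (a + 1, 0)) (X (a + 1 + 1, 0)) (X (a, 1))
        (X (a + 1, 1)) (X (a + 1 + 1, 1)) (X (a, 2)) (X (a + 1, 2)) (X (a + 1 + 1, 2) : P ℤ)))⟩
      simp only [dv0, dv1, dv2, map_add, map_mul, map_pow, l0, l1, l2, l3]
  · rw [D_Xgt (by omega), D_Xgt (by omega)]
    rcases Nat.lt_or_ge (i + 1) a with h1 | h1
    · rw [D_Xgt (by omega), sub_self]; exact dvd_zero _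
    · rw [D_Xgt (by omega), sub_self]; exact dvd_zero _

lemma coassoc (i : ℕ) (f : P ℤ) :
    ((3 : ℕ) : P ℤ) ∣ D (i + 2) (D (i + 1) f) - D (i + 1) (D (i + 1) f) := by
  have := hom_cong 3 ((D (i + 2)).comp (D (i + 1))) ((D (i + 1)).comp (D (i + 1))) (fun p => by
    simp only [AlgHom.comp_apply]
    exact coassoc_X i p) f
  simpa only [AlgHom.comp_apply] using this

lemma coassoc9 (i : ℕ) (f : P ℤ) :
    ((9 : ℕ) : P ℤ) ∣ D (i + 2) (D (i + 1) (psi f)) - D (i + 1) (D (i + 1) (psi f)) := by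
  have := hom_cong 9 (((D (i + 2)).comp (D (i + 1))).comp psi)
    (((D (i + 1)).comp (D (i + 1))).comp psi) (fun p => by
    simp only [AlgHom.comp_apply, psi_X, map_pow]
    exact cube_cong (coassoc_X i p)) f
  simpa only [AlgHom.comp_apply] using this

lemma dd3 {s : ℕ} {f : P ℤ} (hf : IsC s f) : ((3 : ℕ) : P ℤ) ∣ d (s + 1) (d s f) := by
  rw [← Ideal.mem_span_singleton, ← Ideal.Quotient.eq_zero_iff_mem]
  refine dd_zero (Ideal.Quotient.mk (Ideal.span {((3 : ℕ) : P ℤ)})) hf fun i hi _ => ?_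
  obtain ⟨i, rfl⟩ : ∃ m, i = m + 1 := ⟨i - 1, by omega⟩
  rw [Ideal.Quotient.eq, Ideal.mem_span_singleton]
  exact coassoc i f

lemma dd9 {s : ℕ} {f : P ℤ} (hf : IsC s f) : ((9 : ℕ) : P ℤ) ∣ d (s + 1) (d s (psi f)) := by
  rw [← Ideal.mem_span_singleton, ← Ideal.Quotient.eq_zero_iff_mem]
  refine dd_zero (Ideal.Quotient.mk (Ideal.span {((9 : ℕ) : P ℤ)})) hf.psi fun i hi _ => ?_
  obtain ⟨i, rfl⟩ : ∃ m, i = m + 1 := ⟨i - 1, by omega⟩
  rw [Ideal.Quotient.eq, Ideal.mem_span_singleton]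
  exact coassoc9 i f

lemma three_cancel {f g : P ℤ} (h : (3 : P ℤ) * f = 3 * g) : f = g :=
  mul_left_cancel₀ (by norm_num) h

lemma IsC.div {s : ℕ} {f g : P ℤ} (hf : IsC s f) (h : f = 3 * g) : IsC s g := by
  unfold IsC at *
  apply three_cancel
  rw [h, map_mul, map_ofNat] at hf
  exact hf

lemma dpsi_cong {s : ℕ} (f : P ℤ) : ((3 : ℕ) : P ℤ) ∣ d s (psi f) - psi (d s f) := by
  unfold d
  rw [map_add, map_sum]
  have : ∑ j ∈ range (s + 1), (-1 : P ℤ) ^ j * D j (psi f) + (-1) ^ (s + 1) * psi f -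
      (∑ j ∈ range (s + 1), psi ((-1 : P ℤ) ^ j * D j f) + psi ((-1 : P ℤ) ^ (s + 1) * f))
      = ∑ j ∈ range (s + 1), (-1 : P ℤ) ^ j * (D j (psi f) - psi (D j f)) := by
    simp only [map_mul, map_pow, map_neg, map_one, mul_sub, Finset.sum_sub_distrib]
    ring
  rw [this]
  exact Finset.dvd_sum fun j _ => (D_psi_cong j f).mul_left _

lemma dpsi_psi_cong {s : ℕ} (f : P ℤ) :
    ((9 : ℕ) : P ℤ) ∣ d s (psi (psi f)) - psi (d s (psi f)) := by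
  unfold d
  rw [map_add, map_sum]
  have : ∑ j ∈ range (s + 1), (-1 : P ℤ) ^ j * D j (psi (psi f)) + (-1) ^ (s + 1) * psi (psi f) -
      (∑ j ∈ range (s + 1), psi ((-1 : P ℤ) ^ j * D j (psi f)) +
        psi ((-1 : P ℤ) ^ (s + 1) * psi f))
      = ∑ j ∈ range (s + 1), (-1 : P ℤ) ^ j * (D j (psi (psi f)) - psi (D j (psi f))) := by
    simp only [map_mul, map_pow, map_neg, map_one, mul_sub, Finset.sum_sub_distrib]
    ring
  rw [this]
  exact Finset.dvd_sum fun j _ => (D_psi_psi_cong j f).mul_left _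

/-- The chain level operation applied to a coboundary. -/
theorem theta {s : ℕ} {c e : P ℤ} (hc : IsC s c) (he : IsC (s + 1) e) :
    ∃ M, IsC (s + 1) M ∧
      ((9 : ℕ) : P ℤ) ∣ d (s + 1) (psi (d s c + 3 * e)) - 3 * d (s + 1) M := by
  obtain ⟨S, hS⟩ := dpsi_cong (s := s) c
  have hSC : IsC (s + 1) S := by
    refine IsC.div (f := d s (psi c) - psi (d s c)) (hc.psi.d.sub hc.d.psi) ?_
    rw [hS]; norm_num
  refine ⟨psi e - S, he.psi.sub hSC, ?_⟩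
  have h1 : psi (d s c + 3 * e) = d s (psi c) + ((3 : ℕ) : P ℤ) * (psi e - S) := by
    rw [map_add, map_mul, map_ofNat]
    push_cast at hS ⊢
    linear_combination -hS
  rw [h1, d_add, d_natmul]
  obtain ⟨w, hw⟩ := dd9 hc
  refine ⟨w, ?_⟩
  rw [hw]; push_cast; ring

end Vale.Agent.P236
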