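import Vale.Agent.P236.Asm
import Vale.Agent.P236.Full

/-! From the polynomial part to the full dual Steenrod algebra. -/

namespace Vale.Agent.P236

open MvPolynomial Finset

/-- The central elements form a commutative ring. -/
noncomputable def phi0 : P (ZMod 3) →ₐ[ZMod 3] Subalgebra.center (ZMod 3) U :=
  aeval fun p => ⟨xi p.1 (p.2 + 1), by
    rw [Subalgebra.mem_center_iff]
    intro b
    exact (xi_central _ _ b).symm⟩

noncomputable def phi : P (ZMod 3) →ₐ[ZMod 3] U := (Subalgebra.val _).comp phi0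

lemma phi_X (p : ℕ × Fin 3) : phi (X p) = xi p.1 (p.2 + 1) := by
  simp [phi, phi0]

lemma coface_xi (j k n : ℕ) : coface j (xi k (n + 1)) = cofaceGen j (.xi k n) :=
  lift_gen _ _ _ _

lemma shift_xi (s k n : ℕ) : shift s (xi k (n + 1)) = xi (k + s) (n + 1) :=
  lift_gen _ _ _ _

lemma phi_D (j : ℕ) (f : P (ZMod 3)) : phi (D j f) = coface j (phi f) := by
  have : (phi.comp (D j) : P (ZMod 3) →ₐ[ZMod 3] U) = (coface j).comp phi := by
    apply MvPolynomial.algHom_ext
    rintro ⟨i, n⟩
    simp only [AlgHom.comp_apply, phi_X, coface_xi, cofaceGen]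
    split_ifs with h1 h2
    · rw [D_Xlt h1, phi_X]
    · rw [D_Xeq h2]
      have hn : n = 0 ∨ n = 1 ∨ n = 2 := by revert n; decide
      rcases hn with rfl | rfl | rfl
      · simp [dv0, phi_X, diagXi, Finset.sum_range_succ, xi]
      · simp [dv1, phi_X, diagXi, Finset.sum_range_succ, xi]
      · simp [dv2, phi_X, diagXi, Finset.sum_range_succ, xi]
    · rw [D_Xgt (by omega), phi_X]
  exact DFunLike.congr_fun this f

lemma phi_T (s : ℕ) (f : P (ZMod 3)) : phi (T s f) = shift s (phi f) := by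
  have : (phi.comp (T s) : P (ZMod 3) →ₐ[ZMod 3] U) = (shift s).comp phi := by
    apply MvPolynomial.algHom_ext
    rintro ⟨i, n⟩
    simp only [AlgHom.comp_apply, phi_X, shift_xi, T_X]
  exact DFunLike.congr_fun this f

lemma phi_d (s : ℕ) (f : P (ZMod 3)) : phi (d s f) = cobar s (phi f) := by
  unfold d cobar
  simp only [map_add, map_sum, map_mul, map_pow, map_neg, map_one, phi_D]

lemma phi_rho (s : ℕ) (f : P (ZMod 3)) : phi (rho s f) ∈ Coch s := by
  induction f using MvPolynomial.induction_on with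
  | C a =>
    rw [← MvPolynomial.algebraMap_eq, AlgHom.commutes, AlgHom.commutes]
    exact Subalgebra.algebraMap_mem _ _
  | add p q hp hq => rw [map_add, map_add]; exact Subalgebra.add_mem _ hp hq
  | mul_X p i hp =>
    rw [map_mul, map_mul, rho_X]
    refine Subalgebra.mul_mem _ hp ?_
    split_ifs with h
    · rw [phi_X]
      exact Algebra.subset_adjoin ⟨i.1, i.2 + 1, h, Or.inl rfl⟩
    · rw [map_zero]; exact Subalgebra.zero_mem _

lemma IsC.phi {s : ℕ} {f : P (ZMod 3)} (hf : IsC s f) : phi f ∈ Coch s := by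
  rw [← hf]; exact phi_rho s f

lemma phi_hh (m : ℕ) : phi (hh m) = hCl m := by
  rw [hh, map_pow, phi_X, hCl]
  rfl

lemma phi_bb (m : ℕ) : phi (bb m) = bCl m := by
  have h : bb m = X (0, 0) ^ (2 * 3 ^ m) * X (1, 0) ^ (3 ^ m)
      + X (0, 0) ^ (3 ^ m) * X (1, 0) ^ (2 * 3 ^ m) := by
    rw [bb, frob_add, mul_pow, mul_pow, ← pow_mul, ← pow_mul]
  have h2 : Finset.Ioo 0 3 = ({1, 2} : Finset ℕ) := by decide
  rw [h, bCl, h2, Finset.sum_pair (by decide)]
  simp only [map_add, map_mul, map_pow, phi_X]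
  norm_num [Nat.choose]
  rw [add_comm]

lemma cup_phi (s : ℕ) (f g : P (ZMod 3)) : cup s (phi f) (phi g) = phi (f * T s g) := by
  rw [cup, map_mul, phi_T]

end Vale.Agent.P236
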